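import Vale.Agent.P361.H113.Main

namespace Vale.Agent.Results.P361.BlochEnergy

open Filter Topology Vale.Agent.P361.Model Vale.Agent.P361.H285 Vale.Agent.P361.H113

/-- Every spin `S = n / 2`, `n = 1, 2, 3, …`: Bloch's law, and the energy and the entropy of ideal
spin waves with relative error `o(1)` uniformly in the field `0 ≤ h < ∞`. -/
theorem result (n : ℕ) (hn : 1 ≤ n) :
    -- Bloch's law
    ((∀ β : ℝ, 0 < β →
      (∀ h : ℝ, Tendsto (fun N : ℕ => finPressure n N β h) atTop (𝓝 (pressure n β h))) ∧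
      ConvexOn ℝ Set.univ (pressure n β) ∧
      HasDerivWithinAt (pressure n β) (spontMag n β) (Set.Ioi 0) 0 ∧
      spontMag n β ≤ (n : ℝ) / 2) ∧
    (∃ β₀ : ℝ, 0 < β₀ ∧ ∀ β : ℝ, β₀ ≤ β → 0 < spontMag n β) ∧
    Tendsto (fun β : ℝ => spontMag n β) atTop (𝓝 ((n : ℝ) / 2)) ∧
    Tendsto (fun β : ℝ => β ^ (3 / 2 : ℝ) * ((n : ℝ) / 2 - spontMag n β)) atTop
      (𝓝 ((riemannZeta (3 / 2)).re /
        (8 * Real.pi ^ (3 / 2 : ℝ) * ((n : ℝ) / 2) ^ (3 / 2 : ℝ))))) ∧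
    -- `b ↦ b p_b(h)` is convex; minus its one-sided derivatives are the extreme energy densities
    (∀ h : ℝ, ConvexOn ℝ (Set.Ioi 0) (fun b : ℝ => b * pressure n b h) ∧
      ∀ β : ℝ, 0 < β →
        HasDerivWithinAt (fun b : ℝ => b * pressure n b h) (-energyR n β h) (Set.Ioi β) β ∧
        HasDerivWithinAt (fun b : ℝ => b * pressure n b h) (-energyL n β h) (Set.Iio β) β ∧
        ∀ ε : ℝ, 0 < ε → ∀ᶠ N : ℕ in atTop,
          energyR n β h - ε ≤ finEnergy n N β h ∧ finEnergy n N β h ≤ energyL n β h + ε) ∧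
    -- energy in all fields: infinite volume, and Gibbs states of large free cubes
    (∀ ε : ℝ, 0 < ε → ∀ᶠ β : ℝ in atTop, ∀ h : ℝ, 0 ≤ h →
      |β ^ (5 / 2 : ℝ) * (energyR n β h + 3 * ((n : ℝ) / 2) ^ 2 + (n : ℝ) / 2 * h) -
        spinWaveEnergy ((n : ℝ) / 2) (β * h)| ≤ ε * spinWaveEnergy ((n : ℝ) / 2) (β * h) ∧
      |β ^ (5 / 2 : ℝ) * (energyL n β h + 3 * ((n : ℝ) / 2) ^ 2 + (n : ℝ) / 2 * h) -
        spinWaveEnergy ((n : ℝ) / 2) (β * h)| ≤ ε * spinWaveEnergy ((n : ℝ) / 2) (β * h) ∧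
      ∀ᶠ N : ℕ in atTop,
        |β ^ (5 / 2 : ℝ) * (finEnergy n N β h + 3 * ((n : ℝ) / 2) ^ 2 + (n : ℝ) / 2 * h) -
          spinWaveEnergy ((n : ℝ) / 2) (β * h)| ≤ ε * spinWaveEnergy ((n : ℝ) / 2) (β * h)) ∧
    -- entropy in all fields: infinite volume, and Gibbs states of large free cubes
    (∀ ε : ℝ, 0 < ε → ∀ᶠ β : ℝ in atTop, ∀ h : ℝ, 0 ≤ h →
      |β ^ (3 / 2 : ℝ) * (β * (pressure n β h + energyR n β h)) -
        spinWaveEntropy ((n : ℝ) / 2) (β * h)| ≤ ε * spinWaveEntropy ((n : ℝ) / 2) (β * h) ∧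
      |β ^ (3 / 2 : ℝ) * (β * (pressure n β h + energyL n β h)) -
        spinWaveEntropy ((n : ℝ) / 2) (β * h)| ≤ ε * spinWaveEntropy ((n : ℝ) / 2) (β * h) ∧
      ∀ᶠ N : ℕ in atTop,
        |β ^ (3 / 2 : ℝ) * finEntropy n N β h -
          spinWaveEntropy ((n : ℝ) / 2) (β * h)| ≤ ε * spinWaveEntropy ((n : ℝ) / 2) (β * h)) ∧
    -- zero field: energy
    Tendsto (fun β : ℝ => β ^ (5 / 2 : ℝ) * (energyR n β 0 + 3 * ((n : ℝ) / 2) ^ 2)) atTop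
      (𝓝 (3 * (riemannZeta (5 / 2)).re /
        (16 * Real.pi ^ (3 / 2 : ℝ) * ((n : ℝ) / 2) ^ (3 / 2 : ℝ)))) ∧
    Tendsto (fun β : ℝ => β ^ (5 / 2 : ℝ) * (energyL n β 0 + 3 * ((n : ℝ) / 2) ^ 2)) atTop
      (𝓝 (3 * (riemannZeta (5 / 2)).re /
        (16 * Real.pi ^ (3 / 2 : ℝ) * ((n : ℝ) / 2) ^ (3 / 2 : ℝ)))) ∧
    -- zero field: entropy
    Tendsto (fun β : ℝ => β ^ (3 / 2 : ℝ) * (β * (pressure n β 0 + energyR n β 0))) atTop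
      (𝓝 (5 * (riemannZeta (5 / 2)).re /
        (16 * Real.pi ^ (3 / 2 : ℝ) * ((n : ℝ) / 2) ^ (3 / 2 : ℝ)))) ∧
    Tendsto (fun β : ℝ => β ^ (3 / 2 : ℝ) * (β * (pressure n β 0 + energyL n β 0))) atTop
      (𝓝 (5 * (riemannZeta (5 / 2)).re /
        (16 * Real.pi ^ (3 / 2 : ℝ) * ((n : ℝ) / 2) ^ (3 / 2 : ℝ)))) :=
  final n hn

end Vale.Agent.Results.P361.BlochEnergy
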