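import Vale.Agent.P361.H285.Main

namespace Vale.Agent.Results.P361.BlochLawAllFields

open Filter Topology Vale.Agent.P361.Model Vale.Agent.P361.H285

/-- Every spin `S = n / 2`, `n = 1, 2, 3, …`: Bloch's law in zero field, and ideal spin-wave
thermodynamics with relative error `o(1)` uniformly in the field `0 ≤ h < ∞`. -/
theorem result (n : ℕ) (hn : 1 ≤ n) :
    -- the pressure, its symmetry and its one-sided derivatives
    (∀ β : ℝ, 0 < β →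
      (∀ h : ℝ, Tendsto (fun N : ℕ => finPressure n N β h) atTop (𝓝 (pressure n β h))) ∧
      ConvexOn ℝ Set.univ (pressure n β) ∧
      (∀ h : ℝ, pressure n β (-h) = pressure n β h) ∧
      HasDerivWithinAt (pressure n β) (spontMag n β) (Set.Ioi 0) 0 ∧
      HasDerivWithinAt (pressure n β) (-spontMag n β) (Set.Iio 0) 0 ∧
      ∀ h : ℝ, 0 ≤ h →
        HasDerivWithinAt (pressure n β) (magField n β h) (Set.Ioi h) h ∧
        0 ≤ spontMag n β ∧ spontMag n β ≤ magField n β h ∧ magField n β h ≤ (n : ℝ) / 2) ∧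
    -- Bloch's law in zero field
    (∃ β₀ : ℝ, 0 < β₀ ∧ ∀ β : ℝ, β₀ ≤ β → 0 < spontMag n β) ∧
    Tendsto (fun β : ℝ => spontMag n β) atTop (𝓝 ((n : ℝ) / 2)) ∧
    Tendsto (fun β : ℝ => β ^ (3 / 2 : ℝ) * ((n : ℝ) / 2 - spontMag n β)) atTop
      (𝓝 ((riemannZeta (3 / 2)).re /
        (8 * Real.pi ^ (3 / 2 : ℝ) * ((n : ℝ) / 2) ^ (3 / 2 : ℝ)))) ∧
    -- magnetization in all fields
    (∀ ε : ℝ, 0 < ε → ∀ᶠ β : ℝ in atTop, ∀ h : ℝ, 0 ≤ h →
      |β ^ (3 / 2 : ℝ) * ((n : ℝ) / 2 - magField n β h) - spinWaveDeficit ((n : ℝ) / 2) (β * h)| ≤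
        ε * spinWaveDeficit ((n : ℝ) / 2) (β * h)) ∧
    -- pressure in all fields
    (∀ ε : ℝ, 0 < ε → ∀ᶠ β : ℝ in atTop, ∀ h : ℝ, 0 ≤ h →
      |β ^ (5 / 2 : ℝ) * (pressure n β h - 3 * ((n : ℝ) / 2) ^ 2 - (n : ℝ) / 2 * h) -
        spinWavePressure ((n : ℝ) / 2) (β * h)| ≤ ε * spinWavePressure ((n : ℝ) / 2) (β * h)) ∧
    -- magnetization of the Gibbs states of large free cubes
    (∀ ε : ℝ, 0 < ε → ∀ᶠ β : ℝ in atTop, ∀ h : ℝ, 0 < h → ∀ᶠ N : ℕ in atTop,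
      |β ^ (3 / 2 : ℝ) * ((n : ℝ) / 2 - finMag n N β h) -
        spinWaveDeficit ((n : ℝ) / 2) (β * h)| ≤ ε * spinWaveDeficit ((n : ℝ) / 2) (β * h)) :=
  final n hn

end Vale.Agent.Results.P361.BlochLawAllFields
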